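import Vale.Agent.P354FQ.Defs
import Vale.Agent.P354XR.Dict

/-!
Sums over slabs, volumes, smallness.
-/

open MeasureTheory Set Filter Finset

noncomputable section

namespace Vale.Agent.P354FQ

open Vale.Agent.P354XG Vale.Agent.P354XD Vale.Agent.P354XR Vale.Agent.P354XI Vale.Agent.P354Z
open Vale.Agent.P354YH Vale.Agent.P354SI Vale.Agent.P354XT Vale.Agent.P354CV
open Vale.Agent.P354BO (χ K_cpt K_ne χ_out χ_sm)

/-- The cut off in time after the slab k. -/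
def be (t1 : ℝ) (k : ℕ) (t : ℝ) : ℝ := 1 - Real.smoothTransition (t - t1 - (k + 1 : ℕ))

theorem be_mem (t1 : ℝ) (k : ℕ) (t : ℝ) : be t1 k t ∈ Set.Icc (0 : ℝ) 1 :=
  ⟨sub_nonneg.2 (Real.smoothTransition.le_one _), sub_le_self _ (Real.smoothTransition.nonneg _)⟩

theorem be_sum (t1 : ℝ) (k : ℕ) (t : ℝ) : ∑ j ∈ range (k + 1), bp (t - (t1 + j)) =
    be t1 k t - (1 - Real.smoothTransition (t - t1)) := by
  have := bp_sum 0 (k + 1) (Nat.zero_le _) (t - t1)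
  simp only [← range_eq_Ico, Nat.cast_zero, sub_zero, sub_sub] at this
  rw [this, be, sub_sub t t1]
  ring

theorem bp_ne {t a : ℝ} (h : bp (t - a) ≠ 0) : a ≤ t ∧ t ≤ a + 2 := by
  have : t - a ∈ Set.Icc (0 : ℝ) 2 := by
    by_contra d
    exact h (bp_out d)
  exact ⟨by linarith [this.1], by linarith [this.2]⟩

variable {Q t1 t : ℝ} {k : ℕ}

theorem sum_le_be (h0 : 0 ≤ Q) (h1 : 0 ≤ t1) (h : t1 ≤ t) :
    ∑ j ∈ range (k + 1), wt Q j * bp (t - (t1 + j)) ≤ (1 + t) ^ Q * be t1 k t := by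
  have a : ∑ j ∈ range (k + 1), wt Q j * bp (t - (t1 + j)) ≤
      (1 + t) ^ Q * ∑ j ∈ range (k + 1), bp (t - (t1 + j)) := by
    rw [mul_sum]
    refine sum_le_sum fun j _ => ?_
    by_cases c : bp (t - (t1 + j)) = 0
    · simp [c]
    · exact mul_le_mul_of_nonneg_right (Real.rpow_le_rpow (by positivity)
        (by linarith [(bp_ne c).1]) h0) (bp_nonneg _)
  rw [be_sum] at a
  exact a.trans (mul_le_mul_of_nonneg_left (sub_le_self _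
    (sub_nonneg.2 (Real.smoothTransition.le_one _))) (Real.rpow_nonneg (by linarith) _))

/-- Three consecutive terms. -/
def b3 (b : ℕ → ℝ) (j : ℕ) : ℝ := b j + b (j + 1) + b (j + 1 + 1)

theorem be_le_sum (h0 : 0 ≤ Q) (h3 : Q ≤ 3) (h1 : 0 ≤ t1) (h : t1 + 1 ≤ t) {b : ℕ → ℝ}
    (b0 : ∀ j, 0 ≤ b j) {e : ℝ} (e0 : 0 ≤ e) : (1 + t) ^ Q * be t1 k t * (e + b ⌊t - t1⌋₊) ≤
      (t1 + 3) ^ 3 * ∑ j ∈ range (k + 1), wt Q j * (bp (t - (t1 + j)) * (e + b3 b j)) := by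
  have a := be_sum t1 k t
  rw [Real.smoothTransition.one_of_one_le (by linarith), sub_self, sub_zero] at a
  rw [← a, mul_sum, sum_mul, mul_sum]
  refine sum_le_sum fun j _ => ?_
  by_cases c : bp (t - (t1 + j)) = 0
  · simp [c]
  obtain ⟨c1, c2⟩ := bp_ne c
  have j0 : (0 : ℝ) ≤ j := j.cast_nonneg
  have e1 : (1 + t) ^ Q ≤ (t1 + 3) ^ 3 * wt Q j :=
    rpow_cmp h0 h3 (by linarith) (by positivity) (by linarith) (by nlinarith)
  have e2 : b ⌊t - t1⌋₊ ≤ b3 b j := by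
    have l1 : j ≤ ⌊t - t1⌋₊ := Nat.le_floor (by linarith)
    have l2 : ⌊t - t1⌋₊ ≤ j + 2 := Nat.floor_le_of_le (by push_cast; linarith)
    have := b0 j
    have := b0 (j + 1)
    have := b0 (j + 1 + 1)
    rcases (by omega : ⌊t - t1⌋₊ = j ∨ ⌊t - t1⌋₊ = j + 1 ∨ ⌊t - t1⌋₊ = j + 1 + 1) with
      c | c | c <;> rw [c, b3] <;> linarith
  have := mul_le_mul e1 (mul_le_mul_of_nonneg_left (add_le_add_right e2 e) (bp_nonneg
    (t - (t1 + j)))) (mul_nonneg (bp_nonneg _) (add_nonneg e0 (b0 _))) (by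
      have := wt_pos Q j; positivity)
  linarith

theorem sl_one (a : ℝ) (c : ℝ → ℝ) : sl a c (fun _ => 1) = sl 0 c fun _ => 1 := by
  have e : ∀ a, sl a c (fun _ => 1) =
      (∫ t, bp (t - a)) * ∫ y : ℝ × ℂ × ℂ, c y.1 * χ y.2 ^ 2 := fun a => by
    rw [← integral_prod_mul]
    simp only [P354SI.sl, mul_one, mul_assoc]
    rfl
  rw [e, e, integral_sub_right_eq_self, integral_sub_right_eq_self]

variable {P : Pr}

/-- A cut off which is one on the near region up to the radius R. -/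
def c1 (P : Pr) (R r : ℝ) : ℝ := up (P.c.r0 + P.c.d / 2) (P.c.r0 + P.c.d) r * dn R (R + 1) r

theorem c1_nn (R r : ℝ) : 0 ≤ c1 P R r := mul_nonneg (up_nonneg ..) (dn_nonneg ..)

theorem vol_nn (R : ℝ) : 0 ≤ sl 0 (c1 P R) fun _ => 1 :=
  sl_nn fun _ => (c1_nn _ _).trans_eq (mul_one _).symm

namespace St
variable (σ : St P)

theorem two_le (σ : St P) : 2 ≤ P.c.t1 := σ.ok.t1

theorem c1_one (σ : St P) {R r : ℝ} (h : P.c.r0 + P.c.d ≤ r) (h' : r ≤ R) : c1 P R r = 1 := by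
  rw [c1, up_one (by linarith [σ.d_pos]) h, dn_one (lt_add_one _) h', mul_one]

theorem c1_wc {R : ℝ} (h : R + 1 < σ.R2) : σ.Wc (c1 P R) :=
  St.wc_of (by linarith [σ.d_pos]) (by linarith [σ.d_pos]) (lt_add_one _) h

theorem r0_le (σ : St P) : P.c.r0 + P.c.d ≤ P.c.R1 := by
  have a : P.c.r0 + 3 * P.c.d < P354BF.rp P.c.M P.c.a := σ.ok.rp
  have b : 10 * P.c.M + 10 ≤ P.c.R1 := σ.ok.R1
  have c : √(P.c.M ^ 2 - P.c.a ^ 2) ≤ P.c.M :=
    Real.sqrt_le_iff.2 ⟨σ.M0.le, by nlinarith [sq_nonneg P.c.a]⟩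
  unfold P354BF.rp at a
  linarith [σ.d_pos, σ.M0]

theorem B_ge : σ.R2 ≤ σ.B := by
  have a : 10 * P.c.M + 10 ≤ P.c.R1 := σ.ok.R1
  have b : 10 * P.c.R1 ≤ σ.R2 := σ.ok.R2
  have m := σ.M0
  have f : P.c.bt σ.R2 = -σ.R2 - 4 * P.c.M ^ 2 / σ.R2 := σ.ok.btf σ.R2 (by
    show P.c.R1 + 3 ≤ _; linarith)
  have p : 0 ≤ 4 * P.c.M ^ 2 / σ.R2 := div_nonneg (by positivity) (by linarith)
  have c : (1 : ℝ) ≤ P.c.c0 := σ.ok.c0
  have := (σ.is.shape.rad1 (P.c.bt σ.R2, σ.R2, 1) (σ.top.box _ one_ne_zero le_rfl (by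
    show P.c.bt σ.R2 ≤ σ.T + P.c.c0 + 5
    linarith [σ.kT, two_le σ, σ.K.cast_nonneg (α := ℝ)]) (by
      show P.c.r0 ≤ σ.R2; linarith [r0_le σ, σ.d_pos]) le_rfl).1).2.2
  have e : -σ.B ≤ P.c.bt σ.R2 := this
  linarith

theorem e0_le : σ.E.e0 ^ 2 ≤ σ.D := by
  have b : 1 ≤ σ.B := σ.ok.B
  exact (pow_le_pow_left₀ σ.is.near.e0 (le_mul_of_one_le_left σ.is.near.e0 b) 2).trans σ.dB

theorem D_nn : 0 ≤ σ.D := (sq_nonneg _).trans σ.dB

theorem ini {n : ℕ} (h : n ≤ σ.Kc) {x : E6} (hx : x ∈ σ.E.O1) (a : An x)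
    (t : x.1 ≤ P.c.t1 + σ.R2) : σ.E.eta n x ≤ σ.D :=
  (σ.eta_mono (h.trans (Nat.le_add_right _ 2)) x).trans ((σ.is.near.ini x hx a (by
    show _ ≤ P.c.t1 + σ.B + 10; linarith [B_ge σ])).trans (e0_le σ))

theorem fy_zero (hP : P.Ok) {n : ℕ} (h : n ≤ σ.Kc) {R : ℝ} (hR : R + 2 < σ.R2) :
    fy P n R σ 0 ≤ (sl 0 (c1 P (R + 1)) fun _ => 1) * σ.D := by
  have a : 10 * P.c.M + 10 ≤ P.c.R1 := σ.ok.R1
  have b : 10 * P.c.R1 ≤ σ.R2 := σ.ok.R2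
  rw [fy, St.sj_eq (Nat.zero_le _), mul_comm, ← sl_one (P.c.t1 + (0 : ℕ))]
  refine St.sl_le (σ.sa (Nat.zero_le _)) (St.wc_y hP σ R) (c1_wc σ (by linarith)) (σ.cn_eta n)
    continuousOn_const fun x hx an _ t => ?_
  have d := D_nn σ
  by_cases c : P.ch x.2.1 * σ.out R x.2.1 = 0
  · rw [c, zero_mul, mul_one]; exact mul_nonneg d (c1_nn _ _)
  rw [c1_one σ (not_lt.1 fun e => left_ne_zero_of_mul c (up_zero hP.rI.1 e.le))
    (not_lt.1 fun e => right_ne_zero_of_mul c (St.out_zero e.le)), mul_one, mul_one]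
  exact (mul_le_of_le_one_left (σ.eta_nn _ _) (mul_le_one₀ (up_le ..) (St.out_nn _ _)
    (dn_le ..))).trans (ini σ h hx an (by push_cast at t; linarith [σ.M0]))

end St

/-- Smallness. -/
theorem small (hP : P.Ok) (ρ : ℝ) (w N : ℕ) {δ : ℝ} (hδ : 0 < δ) : ∀ᶠ σ in F0 P N,
    σ.B * (σ.E.e0 + |σ.E.M - P.c.M| + |σ.E.a - P.c.a|) ≤ δ ∧
    ∀ x ∈ σ.E.O1, An x → x.2.1 ≤ ρ → P.c.t1 - w ≤ x.1 → σ.E.eta (N / 2) x ≤ δ ^ 2 ∧
      ∀ i, q2 (lt (hp _) (σ.E.p1 σ.c)) x P.c.N0 (σ.E.d1 σ.c i) ≤ δ ^ 2 ∧ (Est.Fa σ.c x →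
        q2 (lt (hp _) (σ.E.p2 σ.c)) x P.c.N0 (σ.E.d2 σ.c i) ≤ δ ^ 2) := by
  have hs := hP.s1
  obtain ⟨Cp, p0, kp⟩ := par_le hs ⌈|P.c.bt P.c.R1 - P.c.t1| + P.c.c0⌉₊
  obtain ⟨Cb, b0, kb⟩ := bootp hs hP.s3 (w + 1 + ⌈P.c.c0⌉₊)
  obtain ⟨C, c1, c2, c3⟩ := ((eventually_ge_atTop (|P.c.C (max ρ (P.c.R1 + 3))| * Cb * 2)).and
    ((eventually_ge_atTop (Real.exp (4 + 2 * (N / 2 : ℕ)) * wt P.c.s0 (w + 1))).and
      (eventually_ge_atTop (1 + |P.c.C P.c.R1| * Cp)))).exists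
  have C1 : 1 ≤ C := le_trans (le_add_of_nonneg_right (by positivity)) c3
  filter_upwards [ev_LK N, ev_e N one_half_pos, ev_c N (e := fun c => δ / (C * (|c.B| + 1)))
    fun c => by positivity] with σ hL he hc
  have e0 := σ.e0
  have ok := σ.ok
  have B1 : 1 ≤ σ.B := ok.B
  have e1 : σ.eps * (C * (σ.B + 1)) ≤ δ := by
    have := (le_div_iff₀ (by positivity)).1 hc.1
    rwa [show |σ.c.B| = σ.B from abs_of_pos (one_pos.trans_le B1)] at this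
  have e2 : C * σ.eps ≤ δ := by nlinarith [mul_pos e0 (one_pos.trans_le C1)]
  have t1 : 0 ≤ P.c.t1 := zero_le_two.trans ok.t1
  have D0 : σ.E.Dec P.c.L0 P.c.s0 σ.eps := fun x hx n1 =>
    (σ.eta_mono (by omega) x).trans (σ.dec x hx n1)
  have C0 : ∀ ρ, 0 ≤ P.c.C ρ := fun ρ => zero_le_one.trans (ok.C ρ)
  simp only [abs_of_nonneg (C0 _)] at c1 c3
  have par : |σ.E.M - P.c.M| + |σ.E.a - P.c.a| ≤ P.c.C P.c.R1 * Cp * σ.eps :=
    kp (c := σ.c) t1 σ.is.near D0 (by linarith [he.1]) σ.e1 (C0 _) (Nat.le_ceil _)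
  have h : Nr σ.c σ.E := ⟨σ.is.shape.co1, σ.is.eqs,
    ((abs_nonneg _).trans_lt σ.is.eqs.par.1).ne'⟩
  refine ⟨?_, fun x hx a hr ht => ?_⟩
  · have : σ.E.e0 + |σ.E.M - P.c.M| + |σ.E.a - P.c.a| ≤ C * σ.eps := by
      linarith [σ.e1, mul_le_mul_of_nonneg_right c3 e0.le]
    nlinarith [mul_le_mul_of_nonneg_left this (zero_le_one.trans B1),
      mul_pos e0 (one_pos.trans_le C1)]
  have hw : |x.1 - P.c.t1 - ⌊x.1 - P.c.t1⌋₊| ≤ (w + 1 : ℕ) := by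
    push_cast
    have w0 : (0 : ℝ) ≤ w := w.cast_nonneg
    rcases le_total 0 (x.1 - P.c.t1) with c | c
    · exact abs_le.2 ⟨by linarith [Nat.floor_le c], by linarith [Nat.lt_floor_add_one (x.1 - P.c.t1)]⟩
    · rw [Nat.floor_of_nonpos c]
      exact abs_le.2 ⟨by push_cast; linarith, by push_cast; linarith⟩
  generalize ⌊x.1 - P.c.t1⌋₊ = j at hw
  have w0 := wt_pos (-P.c.s0) j
  have w1 : wt (-P.c.s0) j ≤ 1 := (wt_le (by linarith) (Nat.zero_le j)).trans_eq (wt_zero _)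
  refine ⟨(h.dec (by linarith) σ.dec (by omega) t1 hx a hw).trans (pow_le_pow_left₀
    (mul_pos (mul_pos (Real.exp_pos _) (wt_pos _ _)) (mul_pos e0 w0)).le ((mul_le_mul c2
      (mul_le_of_le_one_right e0.le w1) (by positivity) (by linarith)).trans e2) 2), fun i => ?_⟩
  have n0 := σ.is.near.e0
  have u := mul_nonneg (C0 (max ρ (P.c.R1 + 3))) b0
  have k := kb (c := σ.c) t1 (zero_le_one.trans ok.c0) σ.is.near D0 e0.le
    (by linarith [σ.e1, he.1]) (le_max_right ρ _) j x hx a (hr.trans (le_max_left _ _))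
    (by push_cast at hw ⊢; exact add_le_add hw (Nat.le_ceil _)) i
  have z : (P.c.C (max ρ (P.c.R1 + 3)) * Cb * (σ.E.e0 + σ.eps) * wt (-P.c.s0) j) ^ 2 ≤ δ ^ 2 :=
    pow_le_pow_left₀ (by positivity) ((mul_le_of_le_one_right (by positivity) w1).trans (by
      nlinarith [mul_le_mul_of_nonneg_left σ.e1 u, mul_le_mul_of_nonneg_right c1 e0.le])) 2
  exact ⟨k.1.trans z, fun f => (k.2 f).trans z⟩

end Vale.Agent.P354FQ
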