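import Vale.Agent.P354CO.Defs
import Vale.Agent.P354SI.Sl

/-!
The far estimate on the slabs of the hierarchy: the family of charts and the exact statements.
-/

open Set Filter

noncomputable section

namespace Vale.Agent.P354FQ

open Vale.Agent.P354XG Vale.Agent.P354XD Vale.Agent.P354XR Vale.Agent.P354XI Vale.Agent.P354Z
open Vale.Agent.P354YH (wt sm Sys)
open Vale.Agent.P354SI
open Vale.Agent.P354XZ (Ch Cut Lt)
open Vale.Agent.P354YK (Fm)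
open Vale.Agent.P354YL (Tm)
open Vale.Agent.P354CO (GT)

/-- A state with the inner radius R0 and the scale U of the far chart. -/
structure Ix (P : Pr) where
  σ : St P
  R0 : ℝ
  U : ℝ
  h1 : 4 * P.c.R1 ≤ R0
  h2 : 24 * P.c.M ^ 2 ≤ R0
  h3 : 1 ≤ P.c.del * R0
  h4 : R0 ≤ U
  h5 : 10 * R0 ≤ σ.R2

variable (P : Pr)

/-- The family of all charts. -/
def fm : Fm := ⟨Ix P, P.c.M, fun j => j.σ.c, fun j => j.σ.E, Ix.R0, Ix.U⟩

theorem fm_ok : (fm P).Ok where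
  M _ := rfl
  co j := j.σ.is.shape.co2
  eqs j := j.σ.is.eqs
  one j := ⟨by
    have a : 10 * P.c.M + 10 ≤ P.c.R1 := j.σ.ok.R1
    have b : 4 * P.c.R1 ≤ (fm P).R0 j := j.h1
    linarith [j.σ.M0], j.h4⟩

abbrev ch : Ch (fm P).A := (fm_ok P).ch
abbrev vw : List Lt → Fin 5 → (fm P).A := P354FA.Vw (fm P).nf (fm P).nf0 (ch P)

variable {P}

/-- The point of E6 and the index of a point of the chart. -/
abbrev pt (x : (ch P).Pt) : E6 := (fm_ok P).pt x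
abbrev jx (x : (ch P).Pt) : Ix P := x.1

/-- The densities in the bulk and in the layer. -/
def qb (K : Cut (ch P)) (n s : ℕ) (x : (ch P).Pt) : ℝ :=
  (ch P).val x (P354YL.Qb (ch P) (fm P).nf (fm P).nf0 K (vw P) 0 n s)
def ql (K : Cut (ch P)) (n s : ℕ) (x : (ch P).Pt) : ℝ :=
  (ch P).val x (P354YL.Ql (ch P) (fm P).nf (fm P).nf0 K (vw P) 0 n s)

/-- The weight ut^(14/5). -/
def uq (x : (ch P).Pt) : ℝ := (ch P).at' ((ch P).mon 0 0 (14 / 5)) x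

/-- The cut offs and the time function. -/
structure Ck (K : Cut (ch P)) (T : Tm (ch P)) : Prop where
  cut : K.Is
  tm : T.Is K
  tv : ∀ x, T.tv x = rv (jx x).σ.E.tau (pt x)
  lv : ∀ j : Ix P, T.Lv j = j.σ.E.Lv
  chi : ∀ x, 3 * (jx x).R0 ≤ (ch P).rr x →
    P.c.del * (ch P).rr x / 4 ≤ (ch P).uu x + (ch P).rr x → (ch P).at' K.chi x = 1
  lay : ∀ x, (ch P).at' K.lay x ≠ 0 → (ch P).rr x ≤ 4 * (jx x).R0 ∨
    (ch P).uu x + (ch P).rr x ≤ P.c.del * (ch P).rr x / 2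
  p1 : ∀ x, (ch P).rr x ≤ (jx x).U / 8 →
    ((ch P).rr x / (8 * (jx x).R0)) ^ 2 ≤ 4 * (ch P).at' K.p x
  p3 : ∀ x, (ch P).rr x ≤ (jx x).U / 4 → (ch P).rr x ^ 2 ≤ 2 * (ch P).at' K.p x
  p2 : ∀ x, (ch P).at' K.p x ≤ (jx x).U ^ 2
  pm : ∃ f : Cs → ℝ → ℝ → ℝ, ∀ j : Ix P, K.pm j ≤ f j.σ.c j.R0 j.U

variable (P)

/-- The cut offs exist. -/
def CUT : Prop := ∃ K T, Ck (P := P) K T

/-- The far estimate on the slabs. -/
def FARS (m : ℕ) : Prop := ∀ K T, Ck (P := P) K T → ∀ n s N, n ≤ m + 6 → n + s ≤ N →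
  ∃ Rm, ∀ R0 ≥ Rm, ∃ R1, ∃ B ≥ 0, ∀ U ≥ R0, ∃ C ≥ 0, ∀ᶠ σ in F0 P N ⊓ GT P m N,
    ∀ k ≤ σ.K,
    ∀ (c : ℝ → ℝ) (F : E6 → ℝ), σ.Wc c → (∀ r, c r ∈ Icc (0 : ℝ) 1) →
      (∀ r, c r ≠ 0 → 4 * R0 ≤ r) → ContinuousOn F {x ∈ σ.E.O1 | Est.Fa σ.c x} →
      (∀ x : (ch P).Pt, (jx x).σ = σ → (jx x).R0 = R0 → (jx x).U = U → c (pt x).2.1 ≠ 0 →
        pt x ∈ σ.E.O1 → P.c.t1 ≤ (pt x).1 → uq x * F (pt x) ≤ qb K n s x) →
      sm P.Q k (fun j => σ.sj j c F) ≤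
        B * sm P.Q k (fun j => fx P (n + s) R1 σ j + fy P P.g R1 σ j) + C * σ.D

end Vale.Agent.P354FQ
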