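import Vale.Agent.P354FQ.Main
import Vale.Agent.P354CP.Loc

/-!
The far estimate on the slabs, unconditional.
-/

namespace Vale.Agent.P354FQ

theorem gik_ok : P354CN.GIK := P354CN.gik P354CP.loc

theorem fars_ok : P354SI.ROW FARS := fars_row gik_ok

end Vale.Agent.P354FQ
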