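import Vale.Agent.P354YK.Ins
import Vale.Agent.P354YF.Je

/-!
The time component of the field m of Kerr; integrals over the far chart.
-/

open MeasureTheory Set

noncomputable section

namespace Vale.Agent.P354FQ

open Vale.Agent.P354XG Vale.Agent.P354XD Vale.Agent.P354XR Vale.Agent.P354XI Vale.Agent.P354Z
open Vale.Agent.P354XZ Vale.Agent.P354YK
open Vale.Agent.P354BO (bu χ)

theorem m0_le {A : Type} [CommRing A] [Algebra ℂ A] {C : Ch A} {K : KC A} (h : Cmp C K)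
    (x : C.Pt) : C.rr x * C.md x ((nfO K).mc 0) ≤ C.md x K.a := by
  have b := h.ch.ibp x.1
  have c : ∀ f, (C.B x.1).c f = K.c f := fun f => by rw [h.ch.c_eq, h.c]
  have r := rr_pos h.ch x
  have er : (C.B x.1).ev x.2 K.r = (C.rr x : ℂ) := by
    rw [← h.r]; exact b.ev_re ((c _).trans (h.r ▸ h.kc.c_r)) _
  have ex := b.ev_re (f := K.x) ((c _).trans h.kc.c_x) x.2
  have ea := b.ev_re (f := K.a) ((c _).trans h.kc.c_a) x.2
  have ei : (C.B x.1).ev x.2 (ii A) = Complex.I := b.ev_alg _ _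
  have s1 : C.md x K.s ≤ 1 := by
    have e := congrArg (fun f => C.val x f) h.kc.hs
    rw [← h.kc.c_s, ← h.c, P354YF.vl_nsq h.ch] at e
    have : C.val x (1 - K.x * K.x) = 1 - (C.B x.1).val x.2 K.x ^ 2 := by
      simp only [Ch.val]
      rw [Ibp.val, map_sub, map_mul, ex, map_one]
      simp [sq]
    nlinarith [P354YF.md0 (C := C) (x := x) K.s, sq_nonneg ((C.B x.1).val x.2 K.x)]
  have z1 : C.rr x * C.md x K.zb ≤ 1 := by
    have e := congrArg (fun f => C.md x f) h.kc.z_ze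
    rw [P354YF.md_mul, P354YF.md_one] at e
    have e1 : C.md x K.zb = C.md x K.z := by rw [← h.kc.c_z, ← h.c, P354YF.md_c h.ch]
    have e2 : C.rr x ≤ C.md x (K.r - ii A * K.a * K.x) := by
      refine le_trans (le_of_eq ?_) (Complex.re_le_norm _)
      rw [map_sub, map_mul, map_mul, er, ex, ea, ei]
      simp
    rw [e1, ← e, mul_comm]
    exact mul_le_mul_of_nonneg_left e2 (P354YF.md0 _)
  have e : C.md x ((nfO K).mc 0) = C.md x K.a * C.md x K.s * C.md x K.zb := by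
    show C.md x (ii A * K.a * K.s * K.zb) = _
    rw [P354YF.md_mul, P354YF.md_mul, P354YF.md_mul, ii, P354YF.md_alg h.ch, Complex.norm_I,
      one_mul]
  have a0 := P354YF.md0 (C := C) (x := x) K.a
  rw [e, mul_left_comm]
  exact (mul_le_of_le_one_right (mul_nonneg a0 (P354YF.md0 _)) z1).trans
    (mul_le_of_le_one_right a0 s1)

variable {Φ : Fm} (h : Φ.Ok)

/-- The constant of the causal weights. -/
theorem hk (x : h.ch.Pt) : 2 * (h.ch.rr x * h.ch.md x (Φ.nf0.mc 0)) ^ 2 ≤ 4 * Φ.M0 ^ 2 := by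
  have m := (h.pt_mem x).1
  have e := (h.eqs x.1).par
  rw [h.M x.1] at e
  have a : h.ch.md x Φ.kc.a = |(Φ.E x.1).a| :=
    (congrArg norm (fv_rs (rs_cst _) m)).trans (Complex.norm_real _)
  have b : h.ch.rr x * h.ch.md x (Φ.nf0.mc 0) ≤ 5 / 4 * Φ.M0 :=
    (m0_le h.cmp x).trans (a.trans_le (e.1.le.trans e.2))
  have := pow_le_pow_left₀ (mul_nonneg (rr_pos h.is x).le (P354YF.md0 _)) b 2
  nlinarith [sq_nonneg Φ.M0]

theorem nq_eq (x : E6) : χ x.2.2 = bu (nq x) := by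
  simp [χ, P354XD.nq, P354BO.N, Complex.normSq_eq_norm_sq]

/-- The integrand. -/
def ig (f : Φ.A) (j : Φ.J) (x : E6) : ℝ := χ x.2.2 ^ 2 * rv (f j) x

variable {j : Φ.J} {f : Φ.A}

theorem J_ig (e : f ∈ (h.ch.B j).K) : (h.ch.B j).J f = ∫ x, ig f j x := by
  rw [h.J_eq e]
  simp only [ig, nq_eq, rv]

include h in
theorem ig_den (x : E6) : ig f j x = (fv (den _ * f j) x).re := by
  by_cases hx : x ∈ (Φ.E j).O2
  · rw [fv_mul, fv_den (h.co j).op hx, Complex.re_ofReal_mul, ig, nq_eq, rv]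
  · simp [ig, rv, fv_out _ hx]

theorem ig_int (e : f ∈ (h.ch.B j).K) : Integrable (ig f j) := by
  obtain ⟨C, c1, c2, -, c4⟩ := (h.mem_K j f).1 e
  rw [funext (ig_den h)]
  refine (integrableOn_iff_integrable_of_support_subset (s := C) fun x hx => ?_).1
    (ContinuousOn.integrableOn_compact c1 (Complex.continuous_re.comp_continuousOn
      fun x hx => (fv_sm (h.co j).op _ (c2 hx)).continuousAt.continuousWithinAt))
  by_contra d
  exact hx (congrArg Complex.re (c4 x d))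

/-- The integrand vanishes off the points of the chart. -/
theorem ig_pt (e : f ∈ (h.ch.B j).K) {x : E6} (hx : ig f j x ≠ 0) :
    x ∈ (Φ.E j).O2 ∧ An x ∧ x ∈ Φ.W j := by
  obtain ⟨C, -, c2, c3, c4⟩ := (h.mem_K j f).1 e
  have a : x ∈ C := by
    by_contra d
    exact hx ((ig_den h x).trans (congrArg Complex.re (c4 x d)))
  refine ⟨c2 a, ?_, c3 a⟩
  by_contra d
  exact hx (by rw [ig, nq_eq, bu_out d]; simp)

theorem J_le (e : f ∈ (h.ch.B j).K) {g : E6 → ℝ} (i : Integrable g) (g0 : ∀ x, 0 ≤ g x)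
    (k : ∀ x : h.ch.Pt, x.1 = j → χ (h.pt x).2.2 ^ 2 * h.ch.val x f ≤ g (h.pt x)) :
    (h.ch.B j).J f ≤ ∫ x, g x := by
  rw [J_ig h e]
  refine integral_mono (ig_int h e) i fun x => ?_
  by_cases c : ig f j x = 0
  · exact c.trans_le (g0 x)
  · exact k (h.pk j x (ig_pt h e c)) rfl

theorem le_J (e : f ∈ (h.ch.B j).K) {g : E6 → ℝ} (i : Integrable g)
    (g0 : ∀ x, 0 < g x → x ∈ (Φ.E j).O2 ∧ An x ∧ x ∈ Φ.W j)
    (k : ∀ x : h.ch.Pt, x.1 = j → g (h.pt x) ≤ χ (h.pt x).2.2 ^ 2 * h.ch.val x f) :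
    ∫ x, g x ≤ (h.ch.B j).J f := by
  rw [J_ig h e]
  refine integral_mono i (ig_int h e) fun x => ?_
  by_cases c : x ∈ (Φ.E j).O2 ∧ An x ∧ x ∈ Φ.W j
  · exact k (h.pk j x c) rfl
  · exact (not_lt.1 (mt (g0 x) c)).trans (not_not.1 (mt (ig_pt h e) c)).ge

/-- An integrable majorant. -/
def mj (x : E6) : ℝ :=
  (1 + ‖x.1‖) ^ (-(41 / 40) : ℝ) * ((1 + ‖x.2.1‖) ^ (-(41 / 40) : ℝ) * χ x.2.2 ^ 2)

theorem chi_int : Integrable fun ξ => χ ξ ^ 2 :=
  (integrableOn_iff_integrable_of_support_subset (s := P354BO.K) fun x hx => by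
    by_contra d
    exact hx (by simp [P354BO.χ_out d])).1
    ((P354BO.χ_sm.continuous.pow 2).continuousOn.integrableOn_compact P354BO.K_cpt)

theorem mj_int : Integrable mj :=
  have a : Integrable fun t : ℝ => (1 + ‖t‖) ^ (-(41 / 40) : ℝ) :=
    integrable_one_add_norm (by norm_num)
  a.mul_prod (a.mul_prod chi_int)

theorem mj_nn (x : E6) : 0 ≤ mj x := by unfold mj; positivity

theorem le_mj {Λ : ℝ} {x : E6} (r : 1 ≤ x.2.1) (t : |x.1| ≤ Λ * x.2.1) :
    χ x.2.2 ^ 2 * x.2.1 ^ (-41 / 20 : ℝ) ≤ (2 * (1 + Λ)) ^ (41 / 40 : ℝ) * mj x := by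
  have r0 : 0 < x.2.1 := by linarith
  have L : 0 ≤ Λ := nonneg_of_mul_nonneg_left ((abs_nonneg _).trans t) r0
  have a : (1 + ‖x.1‖) * (1 + ‖x.2.1‖) ≤ 2 * (1 + Λ) * x.2.1 ^ 2 := by
    rw [Real.norm_eq_abs, Real.norm_eq_abs, abs_of_pos r0]
    exact (mul_le_mul (show 1 + |x.1| ≤ (1 + Λ) * x.2.1 by linarith)
      (show 1 + x.2.1 ≤ 2 * x.2.1 by linarith) (by linarith) (by positivity)).trans_eq (by ring)
  have b := Real.rpow_le_rpow_of_nonpos (by positivity) a (show (-(41 / 40) : ℝ) ≤ 0 by norm_num)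
  rw [Real.mul_rpow (x := 2 * (1 + Λ)) (by positivity) (by positivity),
    Real.mul_rpow (x := 1 + ‖x.1‖) (by positivity) (by positivity),
    ← Real.rpow_natCast, ← Real.rpow_mul r0.le, Real.rpow_neg (x := 2 * (1 + Λ)) (by positivity),
    inv_mul_le_iff₀ (by positivity)] at b
  rw [show ((2 : ℕ) : ℝ) * -(41 / 40) = -41 / 20 by norm_num] at b
  exact (mul_le_mul_of_nonneg_left b (sq_nonneg _)).trans_eq (by rw [mj]; ring)

end Vale.Agent.P354FQ
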