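import Vale.Agent.P354FQ.Pw

/-!
The bulk integral bounds the sums over the slabs.
-/

open scoped ContDiff
open Set Filter MeasureTheory Finset

noncomputable section

namespace Vale.Agent.P354FQ

open Vale.Agent.P354XG Vale.Agent.P354XD Vale.Agent.P354XI Vale.Agent.P354Z
open Vale.Agent.P354YH Vale.Agent.P354SI Vale.Agent.P354XZ Vale.Agent.P354YL Vale.Agent.P354XT
open Vale.Agent.P354BO (χ K_cpt K_ne χ_out χ_sm)

variable {P : Pr} {K : Cut (ch P)} {T : Tm (ch P)} (ck : Ck K T) {φ : ℝ → ℝ} {s : ℝ}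
  (cf : Cf s φ) (hQ : P.Q ≤ 14 / 5)

include ck cf hQ in
theorem val_w {ψ : Fam (ch P).J} (sψ : SmF ψ) (k : ℕ) (f : (fm P).A) (x : (ch P).Pt) :
    (ch P).val x (T.fc φ * (ch P).fn (ps P k) * (ch P).fn ψ * f) =
      φ (T.tv x) * (w0 x * be P.c.t1 k (pt x).1 * ((ch P).at' ψ x * (ch P).val x f)) := by
  rw [mul_assoc, mul_assoc, P354YF.vl_mul ch_is (ck.tm.fc_c φ cf.1), vl_fc ck.tm cf.1,
    P354YF.vl_fn_mul ch_is (ps_cw hQ k x.1).1, P354YF.vl_fn_mul ch_is sψ, ps_at]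

include ck cf in
theorem mem_w {j : Ix P} (hs : s ∈ j.σ.E.Lv) (g f : (fm P).A) :
    T.fc φ * g * (ch P).fn K.chi * f ∈ ((ch P).B j).K ∧
      T.fc φ * g * (ch P).fn K.lay * f ∈ ((ch P).B j).K := by
  obtain ⟨a, b, -⟩ := ck.tm.cpt φ cf.1 j s (ck.lv j ▸ hs) cf.2.2
  rw [mul_right_comm _ g ((ch P).fn K.chi), mul_right_comm _ g ((ch P).fn K.lay)]
  exact ⟨Ideal.mul_mem_right _ _ (Ideal.mul_mem_right _ _ a),
    Ideal.mul_mem_right _ _ (Ideal.mul_mem_right _ _ b)⟩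

theorem sl_intF {σ : St P} {a : ℝ} {c : ℝ → ℝ} {F : E6 → ℝ} (ha : σ.Sa a) (hc : σ.Wc c)
    (h3 : ∀ r, c r ≠ 0 → P.c.R1 + 3 ≤ r) (hF : ContinuousOn F {x ∈ σ.E.O1 | Est.Fa σ.c x}) :
    Integrable fun x : E6 => bp (x.1 - a) * c x.2.1 * χ x.2.2 ^ 2 * F x := by
  obtain ⟨hc0, p, q, b1, b2, b3⟩ := hc
  have R : 10 * P.c.M + 10 ≤ P.c.R1 := σ.ok.R1
  have k : IsCompact (Icc a (a + 2) ×ˢ Icc (max p (P.c.R1 + 3)) q ×ˢ P354BO.K : Set E6) :=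
    isCompact_Icc.prod (isCompact_Icc.prod K_cpt)
  refine (integrableOn_iff_integrable_of_support_subset fun x hx => ?_).1
    (ContinuousOn.integrableOn_compact k (ContinuousOn.mul ?_ (hF.mono fun x hx => ?_)))
  · refine ⟨?_, ⟨max_le ?_ (h3 _ fun e => hx (by simp [e])), ?_⟩, ?_⟩ <;> by_contra d <;>
      refine hx ?_ <;> beta_reduce
    · rw [bp_out (x := x.1 - a) fun e => d ⟨by linarith [e.1], by linarith [e.2]⟩]; ring
    · rw [b3 _ fun e => d e.1]; ring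
    · rw [b3 _ fun e => d e.2]; ring
    · rw [χ_out d]; ring
  · exact (((bp_sm.continuous.comp (continuous_fst.sub continuous_const)).mul
      (hc0.comp continuous_snd.fst)).mul ((χ_sm.continuous.comp continuous_snd.snd).pow 2)
      ).continuousOn
  · obtain ⟨r1, r2⟩ := max_le_iff.1 hx.2.1.1
    have m := σ.M0
    refine ⟨(σ.box (K_ne hx.2.2) (by linarith [ha.1, hx.1.1]) (by linarith [ha.2, hx.1.2])
      (by linarith) (by linarith [hx.2.1.2])).1, r2, ?_⟩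
    have : 0 ≤ 4 * σ.c.M ^ 2 / x.2.1 := div_nonneg (by positivity) (by linarith)
    unfold uu
    linarith [ha.1, hx.1.1, St.two_le σ]

theorem sm_eq {σ : St P} {k : ℕ} (hk : k ≤ σ.K) {c : ℝ → ℝ} {F : E6 → ℝ}
    (i : ∀ j ≤ k, Integrable fun x : E6 =>
      bp (x.1 - (P.c.t1 + j)) * c x.2.1 * χ x.2.2 ^ 2 * F x) :
    Integrable (fun x : E6 => ∑ j ∈ range (k + 1),
      wt P.Q j * (bp (x.1 - (P.c.t1 + j)) * c x.2.1 * χ x.2.2 ^ 2 * F x)) ∧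
    ∫ x : E6, ∑ j ∈ range (k + 1), wt P.Q j * (bp (x.1 - (P.c.t1 + j)) * c x.2.1 * χ x.2.2 ^ 2 *
      F x) = sm P.Q k fun j => σ.sj j c F := by
  have a := fun j (hj : j ∈ range (k + 1)) => (i j (Nat.lt_succ_iff.1 (mem_range.1 hj))).const_mul
    (wt P.Q j)
  refine ⟨integrable_finsetSum _ a, (integral_finsetSum _ a).trans (sum_congr rfl fun j hj => ?_)⟩
  rw [integral_const_mul]
  exact congrArg _ (St.sj_eq ((Nat.lt_succ_iff.1 (mem_range.1 hj)).trans hk) c F).symm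

/-- A cut off in tau which is one on the box. -/
theorem ex_cf (σ : St P) : ∃ φ, Cf σ.s φ ∧ ∀ x : E6, An x → P.c.t1 ≤ x.1 →
    x.1 ≤ P.c.t1 + σ.K + 2 → P.c.r0 ≤ x.2.1 → x.2.1 ≤ σ.R2 → φ (rv σ.E.sig x) = 1 := by
  have k : IsCompact (Icc P.c.t1 (P.c.t1 + σ.K + 2) ×ˢ Icc P.c.r0 σ.R2 ×ˢ P354BO.K : Set E6) :=
    isCompact_Icc.prod (isCompact_Icc.prod K_cpt)
  have c : (1 : ℝ) ≤ P.c.c0 := σ.ok.c0
  have b := fun x (hx : x ∈ (Icc P.c.t1 (P.c.t1 + σ.K + 2) ×ˢ Icc P.c.r0 σ.R2 ×ˢ P354BO.K :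
    Set E6)) => σ.box (K_ne hx.2.2) (by linarith [hx.1.1]) (by linarith [hx.1.2, σ.kT])
      hx.2.1.1 hx.2.1.2
  obtain ⟨a, a1, a2⟩ := k.exists_forall_le' (a := -σ.s)
    ((σ.cn_rv σ.E.sig).mono fun x hx => (b x hx).1).neg fun x hx => neg_lt_neg (b x hx).2
  obtain ⟨φ, cf, e⟩ := cf_ex (show -a < σ.s by linarith)
  refine ⟨φ, cf, fun x an t1 t2 r1 r2 => e _ (le_neg.1 (a2 x ⟨⟨t1, t2⟩, ⟨r1, r2⟩, ?_⟩))⟩
  have e : P354XD.nq x = P354BO.N x.2.2 := by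
    simp [P354XD.nq, P354BO.N, Complex.normSq_eq_norm_sq]
  exact ⟨e ▸ an.1, e ▸ an.2⟩

include ck cf hQ in
theorem low (h1 : 5 / 2 ≤ P.Q) (j : Ix P) (hs : s ∈ j.σ.E.Lv) {k : ℕ} (hk : k ≤ j.σ.K)
    (one : ∀ x : E6, An x → P.c.t1 ≤ x.1 → x.1 ≤ P.c.t1 + j.σ.K + 2 → P.c.r0 ≤ x.2.1 →
      x.2.1 ≤ j.σ.R2 → φ (rv j.σ.E.sig x) = 1) (n m : ℕ) {c : ℝ → ℝ} {F : E6 → ℝ}
    (wc : j.σ.Wc c) (c1 : ∀ r, c r ∈ Set.Icc (0 : ℝ) 1) (c4 : ∀ r, c r ≠ 0 → 4 * j.R0 ≤ r)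
    (hF : ContinuousOn F {x ∈ j.σ.E.O1 | Est.Fa j.σ.c x})
    (e : ∀ x : (ch P).Pt, x.1 = j → c (pt x).2.1 ≠ 0 → pt x ∈ j.σ.E.O1 → P.c.t1 ≤ (pt x).1 →
      uq x * F (pt x) ≤ qb K n m x) :
    sm P.Q k (fun i => j.σ.sj i c F) ≤ 8 * K.E j (T.fc φ * (ch P).fn (ps P k))
      (Qb (ch P) (fm P).nf (fm P).nf0 K (vw P) 0 n m) := by
  obtain ⟨g1, g2, -⟩ := j.ge
  have sa := fun i (hi : i ≤ k) => j.σ.sa (hi.trans (hk.trans (Nat.le_add_right _ 2)))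
  obtain ⟨i1, i2⟩ := sm_eq hk fun i hi => sl_intF (sa i hi) wc
    (fun r h => by linarith [c4 r h]) hF
  have t1 := St.two_le j.σ
  have z : ∀ x : E6, ∑ i ∈ range (k + 1), wt P.Q i * (bp (x.1 - (P.c.t1 + i)) * c x.2.1 *
      χ x.2.2 ^ 2 * F x) ≠ 0 → x ∈ j.σ.E.O1 ∧ An x ∧ c x.2.1 ≠ 0 ∧ P.c.t1 ≤ x.1 ∧
        x.1 ≤ P.c.t1 + j.σ.K + 2 := fun x h => by
    obtain ⟨i, hi, h⟩ := exists_ne_zero_of_sum_ne_zero h
    have h' := left_ne_zero_of_mul (right_ne_zero_of_mul h)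
    have hi := Nat.lt_succ_iff.1 (mem_range.1 hi)
    obtain ⟨a1, a2, a3, a4⟩ := St.pt_of (sa i hi) wc h'
    have : (i : ℝ) ≤ j.σ.K := by exact_mod_cast hi.trans hk
    exact ⟨a1, a2, right_ne_zero_of_mul (left_ne_zero_of_mul h'),
      by linarith [i.cast_nonneg (α := ℝ)], by linarith⟩
  rw [← i2, ← inv_mul_le_iff₀ (by norm_num), ← integral_const_mul]
  refine le_J (fm_ok P) (mem_w ck cf hs _ _).1 (i1.const_mul _) (fun x h => ?_) fun x hx => ?_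
  · obtain ⟨a1, a2, a3, a4, -⟩ := z x (right_ne_zero_of_mul h.ne')
    have r := c4 _ a3
    have u : 0 ≤ uu P.c.M x + x.2.1 := by
      have : 0 ≤ 4 * P.c.M ^ 2 / x.2.1 := div_nonneg (by positivity) (by linarith)
      unfold uu
      linarith
    exact ⟨(j.σ.is.shape.up x a1 ⟨(by linarith : P.c.R1 + 3 ≤ _), u⟩).1, a2,
      (by linarith : j.R0 ≤ _), u⟩
  subst hx
  rw [val_w ck cf hQ ck.cut.sm.1, inv_mul_le_iff₀ (by norm_num)]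
  have q0 : 0 ≤ qb K n m x := Qb_pos ch_is ck.cut n m
  have w := w0_nn x hQ
  have b0 := (be_mem P.c.t1 k (pt x).1).1
  by_cases h : ∑ i ∈ range (k + 1), wt P.Q i * (bp ((pt x).1 - (P.c.t1 + i)) * c (pt x).2.1 *
      χ (pt x).2.2 ^ 2 * F (pt x)) = 0
  · exact h.trans_le (mul_nonneg (by norm_num) (mul_nonneg (sq_nonneg _) (mul_nonneg
      (cf.2.1 _).1.1 (mul_nonneg (mul_nonneg w b0) (mul_nonneg
        (ck.cut.rng _ _ (ch_is.dom x)).1.1 q0)))))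
  obtain ⟨a1, a2, a3, a4, a5⟩ := z _ h
  obtain ⟨y, y0, -, eu, -⟩ := uu_pt x
  have r := c4 _ a3
  have d := (jx x).σ.ok.del.2
  obtain ⟨-, p, q, p1, p2, p3⟩ := wc
  have pq : (pt x).2.1 ∈ Set.Icc p q := by
    by_contra d
    exact a3 (p3 _ d)
  have f := e x rfl a3 a1 a4
  have u0 : 0 < uq x := P354YF.at_pos ch_is ..
  rw [ck.chi x (by rw [rr_pt]; linarith) (by
      rw [rr_pt, eu]; nlinarith [show P.c.del ≤ 1 / 10 from d]), ck.tv,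
    ← ((jx x).σ.is.shape.up _ a1 (fa_pt x)).2,
    one _ a2 a4 a5 (by linarith [pq.1]) (by linarith [pq.2]), one_mul, one_mul]
  have s1 := sum_le_be (Q := P.Q) (k := k) (by linarith) (by linarith) a4
  have s2 : c (pt x).2.1 * F (pt x) ≤ qb K n m x / uq x :=
    (mul_le_mul_of_nonneg_left ((le_div_iff₀' u0).2 f) (c1 _).1).trans
      (mul_le_of_le_one_left (div_nonneg q0 u0.le) (c1 _).2)
  have s3 := mul_le_mul_of_nonneg_right (w0_ge x h1 hQ (by linarith)) (div_nonneg q0 u0.le)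
  rw [mul_assoc 8, mul_assoc (w0 x), mul_div_cancel₀ _ u0.ne'] at s3
  calc _ = (∑ i ∈ range (k + 1), wt P.Q i * bp ((pt x).1 - (P.c.t1 + i))) *
        (c (pt x).2.1 * F (pt x)) * χ (pt x).2.2 ^ 2 := by
        rw [sum_mul, sum_mul]; exact sum_congr rfl fun _ _ => by ring
    _ ≤ be P.c.t1 k (pt x).1 * (8 * (w0 x * qb K n m x)) * χ (pt x).2.2 ^ 2 := by
        refine mul_le_mul_of_nonneg_right ((mul_le_mul_of_nonneg_left s2 (sum_nonneg fun i _ =>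
          mul_nonneg (wt_pos _ _).le (bp_nonneg _))).trans ((mul_le_mul_of_nonneg_right s1
            (div_nonneg q0 u0.le)).trans ?_)) (sq_nonneg _)
        rw [mul_comm _ (be ..), mul_assoc]
        exact mul_le_mul_of_nonneg_left s3 b0
    _ = _ := by rw [qb]; ring

end Vale.Agent.P354FQ
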