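import Vale.Agent.P354FQ.Up
import Vale.Agent.P354FS.Fin
import Vale.Agent.P354PA.Low
import Vale.Agent.P354CN.Gik
import Vale.Agent.P354SI.Rows

/-!
The far estimate on the slabs.
-/

open scoped ContDiff
open Set Filter MeasureTheory

noncomputable section

namespace Vale.Agent.P354FQ

open Vale.Agent.P354XG Vale.Agent.P354XD Vale.Agent.P354XI Vale.Agent.P354Z
open Vale.Agent.P354YH Vale.Agent.P354SI Vale.Agent.P354XZ Vale.Agent.P354YL Vale.Agent.P354XT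
open Vale.Agent.P354CN (GIK ab_fa)

variable {P : Pr}

theorem ex_R {c : ℝ} (h : 0 < c) : ∃ R, ∀ r ≥ R, r ^ (-1 / 10 : ℝ) ≤ c := by
  rw [neg_div]
  exact eventually_atTop.1 ((tendsto_rpow_neg_atTop (by norm_num)).eventually (ge_mem_nhds h))

theorem tb_of {K : Cut (ch P)} {T : Tm (ch P)} (ck : Ck K T) {m N : ℕ} (j : Ix P)
    (h1 : N + 20 ≤ j.σ.L + m) (h2 : m + 6 ≤ j.σ.L)
    (h3 : P354CO.TabE j.σ.c j.σ.E m j.σ.L j.σ.s j.σ.ep) : ∀ x ∈ T.Y j j.σ.s,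
      Tb (ch P) (fm P).nf (fm P).nf0 (vw P) ⟨m + 6, m, max (m + 6) (N + 20 - m), m + 12⟩
        (max j.σ.ep 0 * j.U ^ 3) x := by
  have hN : N + 20 - m ≤ j.σ.L := by omega
  have hU : 0 ≤ j.U := by linarith [j.ge.1, j.h4]
  rintro x ⟨rfl, hx⟩
  have t := h3 _ (fm_ok P) x rfl rfl (jx x).ge.2.1 ((ck.tv x).symm.trans_lt hx)
  exact Tb.mono ch_is (nonneg_of_mul_nonneg_left ((P354YF.jet0 ..).trans t.a)
    (P354YF.at_pos ch_is ..)) (mul_le_mul_of_nonneg_right (le_max_left ..)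
      (pow_nonneg hU _))
    ⟨t.b, t.g, t.h, t.a, t.a', fun i w l a b => t.V i w l a (b.trans (max_le h2 hN))⟩

theorem t_le {t r y Λ : ℝ} (r1 : 1 ≤ r) (y1 : y ≤ 1) (u : 0 ≤ t + y + r) (Λ0 : 0 ≤ Λ)
    (h : t ≤ Λ) : |t| ≤ (Λ + 2) * r := by
  have := le_mul_of_one_le_right Λ0 r1
  exact abs_le.2 ⟨by linarith, by linarith⟩

/-- The three cases on the support of the layer. -/
theorem cases3 {K : Cut (ch P)} {n s k J : ℕ} {Ct Cf E D : ℝ} {a b : ℕ → ℝ} (x : (ch P).Pt)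
    (ct : 0 ≤ Ct) (cf : 0 ≤ Cf) (E0 : 0 ≤ E) (D0 : 0 ≤ D) (a0 : ∀ i, 0 ≤ a i) (b0 : ∀ i, 0 ≤ b i)
    (aD : ∀ i, a i ≤ E * D) (hJ : (jx x).U + 1 ≤ J) (t2 : (pt x).1 ≤ P.c.t1 + k + 2)
    (la : (ch P).rr x ≤ 4 * (jx x).R0 ∨
      (ch P).uu x + (ch P).rr x ≤ P.c.del * (ch P).rr x / 2)
    (fa : (ch P).uu x + (ch P).rr x ≤ P.c.del * (ch P).rr x →
      ql K n s x ≤ Cf * (E * D * (ch P).rr x ^ (-41 / 20 : ℝ)))
    (tu : (pt x).2.1 ≤ 4 * (jx x).R0 → ∀ β, 0 ≤ β →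
      (∀ i, q2 (lt (hp _) ((jx x).σ.E.p2 (jx x).σ.c)) (pt x) P.c.N0
        ((jx x).σ.E.d2 (jx x).σ.c i) ≤ β) → ql K n s x ≤
          Ct * (uq x * ((jx x).σ.E.eta (n + s) (pt x) + β) * (pt x).2.1 ^ (-41 / 20 : ℝ)))
    (ini : (pt x).2.1 ≤ 4 * (jx x).R0 → (pt x).1 ≤ P.c.t1 + J → (jx x).σ.E.eta (n + s) (pt x) ≤ D)
    (ga : (pt x).2.1 ≤ 4 * (jx x).R0 → (pt x).1 ≤ P.c.t1 + J → ∀ i,
      q2 (lt (hp _) ((jx x).σ.E.p2 (jx x).σ.c)) (pt x) P.c.N0 ((jx x).σ.E.d2 (jx x).σ.c i) ≤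
        a ⌊(pt x).1 - P.c.t1⌋₊)
    (gb : (pt x).2.1 ≤ 4 * (jx x).R0 → (pt x).1 ≤ P.c.t1 + k + 2 → ∀ i,
      q2 (lt (hp _) ((jx x).σ.E.p2 (jx x).σ.c)) (pt x) P.c.N0 ((jx x).σ.E.d2 (jx x).σ.c i) ≤
        b ⌊(pt x).1 - P.c.t1⌋₊) :
    (ql K n s x ≤ (Cf * E + Ct * (((P.c.t1 + J + 2) * (4 * |(jx x).R0|) + 1 + |(jx x).U|) ^
      (14 / 5 : ℝ) * (1 + E))) * D * (pt x).2.1 ^ (-41 / 20 : ℝ) ∧
        |(pt x).1| ≤ (P.c.t1 + J + 2) * (pt x).2.1) ∨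
      ((pt x).2.1 ≤ 4 * (jx x).R0 ∧ P.c.t1 + 1 ≤ (pt x).1 ∧ (jx x).U ≤ (pt x).1 ∧ ql K n s x ≤
        Ct * (uq x * ((jx x).σ.E.eta (n + s) (pt x) + b ⌊(pt x).1 - P.c.t1⌋₊))) := by
  obtain ⟨y, y0, y1, eu, -, ur⟩ := uu_pt x
  have r0 := R0_le x
  have g := (jx x).ge.1
  have U := (jx x).h4
  have t1 := St.two_le (jx x).σ
  have J0 : (0 : ℝ) ≤ J := J.cast_nonneg
  have d : 0 < P.c.del ∧ P.c.del ≤ 1 / 10 := (jx x).σ.ok.del
  have rp : 0 ≤ (pt x).2.1 ^ (-41 / 20 : ℝ) := Real.rpow_nonneg (by linarith) _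
  have u0 : 0 ≤ uq x := (P354YF.at_pos ch_is ..).le
  have η0 := (jx x).σ.eta_nn (n + s) (pt x)
  rw [rr_pt, eu] at la fa
  by_cases c : (pt x).2.1 ≤ 4 * (jx x).R0
  swap
  · have la := la.resolve_left c
    have := mul_le_mul_of_nonneg_right d.2 (show 0 ≤ (pt x).2.1 by linarith)
    refine .inl ⟨(fa (la.trans (half_le_self (mul_nonneg d.1.le (by linarith))))).trans ?_,
      t_le (by linarith) y1 ur (by linarith) (by linarith)⟩
    rw [← mul_assoc, ← mul_assoc]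
    exact mul_le_mul_of_nonneg_right (mul_le_mul_of_nonneg_right
      (le_add_of_nonneg_right (by positivity)) D0) rp
  rcases le_total (pt x).1 (P.c.t1 + J) with t | t
  · have tt := t_le (by linarith) y1 ur (by linarith) t
    refine .inl ⟨(tu c _ (a0 _) (ga c t)).trans ?_, tt⟩
    rw [← mul_assoc]
    refine mul_le_mul_of_nonneg_right ?_ rp
    have x1 : uq x ≤ ((P.c.t1 + J + 2) * (4 * |(jx x).R0|) + 1 + |(jx x).U|) ^ (14 / 5 : ℝ) := by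
      rw [uq_eq]
      refine Real.rpow_le_rpow (Real.sqrt_nonneg _) ((ux_le x).trans (add_le_add (add_le_add
        (tt.trans (mul_le_mul_of_nonneg_left ?_ (by linarith))) le_rfl) (le_abs_self _)))
        (by norm_num)
      linarith [le_abs_self (jx x).R0]
    have := mul_le_mul_of_nonneg_left (mul_le_mul x1 (add_le_add (ini c t)
      (aD ⌊(pt x).1 - P.c.t1⌋₊)) (add_nonneg η0 (a0 _)) (u0.trans x1)) ct
    rw [add_mul]
    exact le_add_of_nonneg_of_le (by positivity) (this.trans_eq (by ring))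
  · exact .inr ⟨c, by linarith, by linarith, (tu c _ (b0 _) (gb c t2)).trans
      (mul_le_mul_of_nonneg_left (mul_le_of_le_one_right (mul_nonneg u0 (add_nonneg η0 (b0 _)))
        (Real.rpow_le_one_of_one_le_of_nonpos (by linarith) (by norm_num))) ct)⟩

theorem o1_of (x : (ch P).Pt) (c : (pt x).2.1 ≤ 4 * (jx x).R0) : pt x ∈ (jx x).σ.E.O1 :=
  (jx x).σ.is.shape.low _ ((fm_ok P).pt_mem x).1 (fa_pt x) (by
    have : 10 * (jx x).σ.R2 ≤ (jx x).σ.Rs := (jx x).σ.ok.Rs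
    show _ ≤ (jx x).σ.Rs - 1
    linarith [(jx x).h5, (jx x).ge.1])

theorem de_le' {e U p f c : ℝ} (e0 : 0 ≤ e) (U0 : 0 ≤ U) (hp : p ≤ f)
    (a : e ≤ c / ((|U| ^ 3 + 1) * (|f| + 1))) : e * U ^ 3 * p ≤ c := by
  have a := (le_div_iff₀ (by positivity)).1 a
  rw [abs_of_nonneg U0] at a
  have u : 0 ≤ e * U ^ 3 := by positivity
  linarith [mul_le_mul_of_nonneg_left (hp.trans (le_abs_self f)) u, mul_nonneg e0 (abs_nonneg f)]

theorem fin_le {S E L B k V G x y y' A D : ℝ} (lo : S ≤ 8 * E) (mid : E ≤ B * L)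
    (up : L ≤ A * D + k * (x + V * (3 * (G * (D + y'))))) (B0 : 0 ≤ B) (k0 : 0 ≤ k) (V0 : 0 ≤ V)
    (G0 : 0 ≤ G) (x0 : 0 ≤ x) (y0 : 0 ≤ y) (y1 : y' ≤ y) :
    S ≤ 8 * B * (k * (1 + V * (3 * G))) * (x + y) + 8 * B * (A + k * (V * (3 * G))) * D := by
  have p : 0 ≤ B * (k * (V * (3 * G))) := by positivity
  linarith [mul_le_mul_of_nonneg_left up B0, mul_le_mul_of_nonneg_left y1 p, mul_nonneg p x0,
    mul_nonneg (mul_nonneg B0 k0) y0]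

theorem fars {m : ℕ} (G : GIK) (h : Big 10 P m) : FARS P m := by
  intro K T ck n s N hn hs
  have hP := h.ok
  obtain ⟨q1, q2⟩ : 5 / 2 ≤ P.Q ∧ P.Q ≤ 14 / 5 := by
    rcases h.Q with e | e <;> rw [e] <;> norm_num
  have M0 : 0 < P.c.M := (abs_nonneg _).trans_lt h.c.aM
  have h1 := h.hm
  have h2 := h.N
  have h3 := h.g
  have h4 : 13 ≤ P.n0 := Nat.le_add_left ..
  obtain ⟨c, c0, B, B0, far⟩ := far' _ _ _ _ K (vw P) T (sd ck.cut) ck.tm (4 * P.c.M ^ 2)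
    (by positivity) (hk (fm_ok P)) ⟨m + 6, m, max (m + 6) (N + 20 - m), m + 12⟩ n s 0
    ⟨le_rfl, by simp only; omega, le_max_left .., le_rfl⟩ (by simp only; omega)
    ⟨.inl ⟨⟨le_rfl, by norm_num⟩, hn⟩, by simp only; omega, by simp only; omega,
      by simp only; omega, by simp only; omega⟩
  obtain ⟨Rm, hm⟩ := ex_R (half_pos c0)
  refine ⟨max (max Rm P.rb) (max (4 * P.c.R1) (max (24 * P.c.M ^ 2) P.c.del⁻¹)), fun R0 hR => ?_⟩
  simp only [ge_iff_le, max_le_iff] at hR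
  obtain ⟨⟨r1, r2⟩, r3, r4, r5⟩ := hR
  obtain ⟨δ, d0, Ct, ct, tu⟩ := tub P354PA.low2 P354FS.rawn ck.cut n s R0 (by omega)
  obtain ⟨Rg, Cg, cg, gi⟩ := G P hP (by omega) (4 * R0) 2
  have t1 := h.c.t1
  have v0 := vol_nn (P := P) (4 * R0)
  refine ⟨max (4 * R0) Rg, 8 * B * (16 * Ct * (P.c.t1 + 3) ^ 3 *
    (1 + (P354SI.sl 0 (c1 P (4 * R0)) fun _ => 1) * (3 * Cg))), by positivity, fun U hU => ?_⟩
  obtain ⟨J, hJ⟩ := exists_nat_ge (U + 1)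
  obtain ⟨Re, Ce, ce, ge⟩ := G P hP (by omega) (4 * R0) J
  obtain ⟨δf, f0, Cf, cf', fa⟩ := P354FS.ql_far (fm_ok P) ck.cut m4 P354FS.rawl n s U (U ^ 2)
  obtain ⟨f, hf⟩ := ck.pm
  have w0 := vol_nn (P := P) (Re + 1)
  obtain ⟨E, hE⟩ : ∃ E, E = Ce * (1 + P354SI.sl 0 (c1 P (Re + 1)) fun _ => 1) := ⟨_, rfl⟩
  have E0 : 0 ≤ E := by rw [hE]; positivity
  have i0 : 0 ≤ ∫ x, mj x := integral_nonneg mj_nn
  refine ⟨8 * B * (2 * (2 * (1 + (P.c.t1 + J + 2))) ^ (41 / 40 : ℝ) * (Cf * E +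
    Ct * (((P.c.t1 + J + 2) * (4 * |R0|) + 1 + |U|) ^ (14 / 5 : ℝ) * (1 + E))) * (∫ x, mj x) +
      16 * Ct * (P.c.t1 + 3) ^ 3 * ((P354SI.sl 0 (c1 P (4 * R0)) fun _ => 1) * (3 * Cg))),
    by positivity, ?_⟩
  rw [P354CO.GT, eventually_inf_principal]
  filter_upwards [gi.filter_mono (F0_g N), ge.filter_mono (F0_g N), ev_LK N, ev_g N,
    small hP (4 * R0) ⌈P.c.t1 + 4 * R0 + 1⌉₊ N (lt_min d0 f0),
    ev_R N (10 * R0 + J + |Re| + 3),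
    ev_c N (e := fun c' => c / 2 / ((|U| ^ 3 + 1) * (|f c' R0 U| + 1))) fun _ => by positivity]
    with σ gi ge hL hg sm' hR2 he tb k hk cc F wc c1' c4 hF e
  have R1 : 10 * P.c.M + 10 ≤ P.c.R1 := h.c.R1
  have J0 : (0 : ℝ) ≤ J := J.cast_nonneg
  have e1 := abs_nonneg Re
  let j : Ix P := ⟨σ, R0, U, r3, r4, (inv_le_iff_one_le_mul₀' h.c.del.1).1 r5, hU, by linarith⟩
  obtain ⟨φ, cf, one⟩ := ex_cf σ
  have U0 : 0 ≤ U := by linarith
  have lo := low ck cf q2 q1 j σ.sL hk one n s wc c1' c4 hF fun x hx =>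
    e x (congrArg Ix.σ hx) (congrArg Ix.R0 hx) (congrArg Ix.U hx)
  have mid := far j σ.s _ φ _ (ck.lv j ▸ σ.sL) (mul_nonneg (le_max_right ..) (pow_nonneg U0 3))
    ((add_le_add (de_le' (le_max_right ..) U0 (hf j) (max_le he.2 (by positivity)))
      (hm R0 r1)).trans_eq (add_halves c)) (tb_of ck j tb.1 tb.2.1 tb.2.2) cf (ps_cw q2 k j)
  obtain ⟨-, b, b0, b1, b2⟩ := gi k hk
  obtain ⟨a0, a, a1, a2, a3⟩ := ge 0 (Nat.zero_le _)
  have D0 := St.D_nn σ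
  have z : Ce * (σ.D + sm P.Q 0 (fy P P.g Re σ)) ≤ E * σ.D := by
    have := St.fy_zero σ hP (n := P.g) (by omega) (R := Re) (by linarith [le_abs_self Re])
    rw [sm, Finset.sum_range_one, wt_zero, one_mul, hE, mul_assoc]
    exact mul_le_mul_of_nonneg_left (by linarith) ce
  have hM : |σ.E.M - P.c.M| ≤ δ := by
    have := σ.is.near.e0
    have := abs_nonneg (σ.E.a - P.c.a)
    exact le_trans (by linarith) ((le_mul_of_one_le_left (by positivity) σ.ok.B).trans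
      (sm'.1.trans (min_le_left ..)))
  have dd := pow_le_pow_left₀ (lt_min d0 f0).le (min_le_left δ δf) 2
  have up := upp ck cf q2 hP j σ.sL hk n s (A := (Cf * E + Ct * (((P.c.t1 + J + 2) * (4 * |R0|) +
    1 + |U|) ^ (14 / 5 : ℝ) * (1 + E))) * σ.D) (Λ := P.c.t1 + J + 2) (by positivity)
    (by positivity) ct b0 b1 r2 (le_max_left _ Rg) fun x hx la t2 => by
    have an := ((fm_ok P).pt_mem x).2.1
    have fx := fa_pt x
    have o1 := o1_of x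
    have H := cases3 (K := K) (n := n) (s := s) (J := J) x ct cf' E0 D0 a1 b0
      (fun i => (P354CO.le_D hP.Q0 a1 a2 i).trans z) (by rw [show jx x = j from hx]; exact hJ) t2
      (ck.lay x la)
    have p2 := ck.p2 x
    have r0 := (R0_le x).trans_eq (rr_pt x).symm
    have tu := tu x
    have fa := fa x 0
    have rp := Real.rpow_nonneg (P354YF.rr_pos ch_is x).le (-41 / 20)
    obtain ⟨y, -, y1, -, -, ur⟩ := uu_pt x
    obtain ⟨j', x⟩ := x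
    subst hx
    have ab := ab_fa σ.ok fx
    refine H (fun la => (fa _ σ.ok σ.is.near (show _ ≤ σ.Kc by omega) le_rfl p2 le_rfl
      (r3.trans r0) la (sm'.1.trans (min_le_right ..)) le_rfl).trans (mul_le_mul_of_nonneg_left
        (mul_le_mul_of_nonneg_right (a0.trans z) rp) cf')) (fun c β β0 g => ?_)
      (fun c t => St.ini σ (by omega) (o1 c) an (t.trans (by linarith)))
      (fun c t i => (a3 _ (o1 c) an ab c (t.trans_eq (by simp)) i).2 fx)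
      fun c t i => (b2 _ (o1 c) an ab c (t.trans_eq (by simp)) i).2 fx
    have c' : (pt ⟨j, x⟩).2.1 ≤ 4 * R0 := c
    obtain ⟨s1, s2⟩ := sm'.2 _ (o1 c) an c (by linarith [Nat.le_ceil (P.c.t1 + 4 * R0 + 1)])
    exact tu (o1 c) c hM ((σ.eta_mono (Nat.div_le_div_right hs) _).trans (s1.trans dd)) β β0
      fun i => ⟨(s2 i).1.trans dd, le_min (((s2 i).2 fx).trans dd) (g i)⟩
  rw [sm_add]
  exact fin_le lo mid (up.trans_eq (congrArg (· + _) (by ring))) B0 (by positivity) v0 cg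
    (sm_nn P.Q k fun i => fx_nn _ _ σ i) (sm_nn P.Q k fun i => fy_nn _ _ σ i)
    (sm_mono P.Q k fun i => fy_mono hP le_rfl (le_max_right (4 * R0) Rg) σ i)

theorem fars_row (G : GIK) : ROW fun P m => FARS P m := ⟨10, fun _ _ h => fars G h⟩

end Vale.Agent.P354FQ
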