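import Vale.Agent.P354FQ.Sm
import Vale.Agent.P354FQ.Hk
import Vale.Agent.P354FS.Layb
import Vale.Agent.P354FX.Ins
import Vale.Agent.P354YL.All
import Vale.Agent.P354FA.Bs

/-!
The points of the chart, the weights, the density in the tube.
-/

open scoped ContDiff
open Set Filter

noncomputable section

namespace Vale.Agent.P354FQ

open Vale.Agent.P354XG Vale.Agent.P354XD Vale.Agent.P354XI Vale.Agent.P354Z
open Vale.Agent.P354YH Vale.Agent.P354SI Vale.Agent.P354XZ Vale.Agent.P354YL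
open Vale.Agent.P354FX (dv Pe LOW2)
open Vale.Agent.P354YF (raw_ql cnt)

variable {P : Pr}

theorem ch_is : (ch P).Is := (fm_ok P).is

theorem Ix.ge (j : Ix P) : 40 ≤ j.R0 ∧ P.c.R1 + 3 ≤ j.R0 ∧ 4 * P.c.M ≤ j.R0 := by
  have a : 10 * P.c.M + 10 ≤ P.c.R1 := j.σ.ok.R1
  have := j.σ.M0
  have := j.h1
  exact ⟨by linarith, by linarith, by linarith⟩

theorem m4 (j : (fm P).J) : 4 * (fm P).M0 ≤ (fm P).R0 j := (Ix.ge j).2.2

theorem sd {K : Cut (ch P)} (k : K.Is) : Sd (ch P) (fm P).nf (fm P).nf0 (fm P).tc K (vw P) where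
  ga := (fm_ok P).ga
  cut := k
  bs s := by
    rcases isEmpty_or_nonempty (ch P).J with e | ⟨⟨j⟩⟩
    · have : Subsingleton (fm P).A := ⟨fun _ _ => funext fun j => e.elim j⟩
      exact ⟨0, 0, 0, ⟨fun _ _ => Subsingleton.elim .., fun _ _ => Subsingleton.elim ..⟩,
        fun _ _ => ⟨.zero, .zero⟩⟩
    · exact P354FA.bs (fm_ok P).ga j s
  nil := P354FA.Vw_nil ..
  S w i := by
    rw [vw, P354FA.Vw, D_sub, P354FA.S_Jh ch_is (fm_ok P).ga.is,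
      P354FA.S_Jh ch_is (fm_ok P).ga.rf.is, sub_zero]

variable (x : (ch P).Pt)

theorem rr_pt : (ch P).rr x = (pt x).2.1 := (fm_ok P).rr_eq x

theorem R0_le : (jx x).R0 ≤ (pt x).2.1 := ((fm_ok P).pt_mem x).2.2.1

theorem uu_pt : ∃ z, 0 ≤ z ∧ z ≤ 1 ∧ (ch P).uu x = (pt x).1 + z ∧
    4 * P.c.M ^ 2 / (ch P).rr x = z ∧ 0 ≤ (pt x).1 + z + (pt x).2.1 := by
  have a := R0_le x
  have b := (jx x).ge.1
  have c := (jx x).h2
  exact ⟨4 * P.c.M ^ 2 / (pt x).2.1, div_nonneg (by positivity) (by linarith), (div_le_one (by linarith)).2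
    (by linarith [sq_nonneg P.c.M]), (fm_ok P).uu_eq x, by rw [rr_pt],
    ((fm_ok P).pt_mem x).2.2.2⟩

theorem fa_pt : Est.Fa (jx x).σ.c (pt x) :=
  ⟨(jx x).ge.2.1.trans (R0_le x), ((fm_ok P).pt_mem x).2.2.2⟩

/-- The smooth modulus of u. -/
abbrev ux : ℝ := (ch P).ut x.1 ((ch P).uu x)

theorem uq_eq : uq x = ux x ^ (14 / 5 : ℝ) := by simp [uq, Ch.at', Ch.mon]

theorem ux_le : ux x ≤ |(pt x).1| + 1 + (jx x).U := by
  obtain ⟨z, z0, z1, e, -⟩ := uu_pt x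
  have := abs_add_le (pt x).1 z
  rw [← e, abs_of_nonneg z0] at this
  exact (P354FS.ut_le ch_is _ _).trans (add_le_add (by linarith) le_rfl)

theorem le_ux : 1 + (pt x).1 ≤ 2 * ux x := by
  obtain ⟨z, z0, -, e, -⟩ := uu_pt x
  have a : |(ch P).uu x| ≤ ux x := Real.abs_le_sqrt (le_add_of_nonneg_right (sq_nonneg _))
  linarith [P354YF.one_le_ut ch_is x.1 ((ch P).uu x), le_abs_self ((ch P).uu x)]

variable (P) in
/-- The causal weight. -/
def ps (k : ℕ) : Fam (ch P).J := W0 (ch P) (4 * P.c.M ^ 2) (P.Q - 14 / 5) *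
  fun _ u r => be P.c.t1 k (u - 4 * P.c.M ^ 2 / r - 0)

/-- Its first factor. -/
def w0 : ℝ := (ch P).at' (W0 (ch P) (4 * P.c.M ^ 2) (P.Q - 14 / 5)) x

theorem ps_at (k : ℕ) : (ch P).at' (ps P k) x = w0 x * be P.c.t1 k (pt x).1 := by
  obtain ⟨z, -, -, e, e', -⟩ := uu_pt x
  show w0 x * be P.c.t1 k ((ch P).uu x - 4 * P.c.M ^ 2 / (ch P).rr x - 0) = _
  rw [e, e', sub_zero, add_sub_cancel_right]

theorem ps_cw (hQ : P.Q ≤ 14 / 5) (k : ℕ) (j : (ch P).J) :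
    Cw (ch P) (4 * P.c.M ^ 2) j (ps P k) := by
  refine Cw.mul ch_is (cw_W0 ch_is (by positivity) (by linarith) j)
    (cw_of ch_is (W := fun _ => be P.c.t1 k) (μ := fun _ _ => 0) (fun _ => contDiff_const.sub
      (Real.smoothTransition.contDiff.comp ((contDiff_id.sub contDiff_const).sub contDiff_const)))
      (fun _ => contDiffOn_const) j (fun t => ⟨(be_mem ..).1, Antitone.deriv_nonpos
        fun a b e => sub_le_sub_left (Real.smoothTransition.monotone (by linarith)) _⟩)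
      fun r _ => ?_)
  simp [sq_nonneg]

theorem w0_ge (h1 : 5 / 2 ≤ P.Q) (h2 : P.Q ≤ 14 / 5) (t : 0 ≤ (pt x).1) :
    (1 + (pt x).1) ^ P.Q ≤ 8 * (w0 x * uq x) := by
  have a : _ ≤ w0 x := W0_ge ch_is (κ := 4 * P.c.M ^ 2) (a := P.Q - 14 / 5) (by positivity) (by linarith)
    (by linarith) x (by rw [rr_pt]; linarith [R0_le x, (jx x).h2, sq_nonneg P.c.M])
  have u := P354YF.one_le_ut ch_is x.1 ((ch P).uu x)
  have b := rpow_cmp (q := P.Q) (by linarith) (by linarith) (by linarith) (by linarith)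
    one_le_two (le_ux x)
  have c : ux x ^ P.Q = (ch P).at' ((ch P).mon 0 0 (P.Q - 14 / 5)) x * uq x := by
    rw [uq, P354YF.at_mon_mul ch_is]
    simp [Ch.at', Ch.mon]
  rw [c] at b
  have : 0 < uq x := P354YF.at_pos ch_is ..
  linarith [mul_le_mul_of_nonneg_right a this.le]

theorem w0_nn (h2 : P.Q ≤ 14 / 5) : 0 ≤ w0 x :=
  ((cw_W0 ch_is (by positivity) (by linarith) x.1).2 _ (ch_is.dom x)).1

theorem w0_le (h2 : P.Q ≤ 14 / 5) :
    w0 x ≤ 2 ∧ (0 ≤ (pt x).1 → w0 x ≤ 2 * (1 + (pt x).1) ^ (P.Q - 14 / 5)) := by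
  obtain ⟨z, -, -, e, e', -⟩ := uu_pt x
  have a : w0 x ≤ _ := W0_le ch_is (by linarith) x.1 _ _
  rw [e, e', add_sub_cancel_right] at a
  have U := (ch_is.one_le x.1).1.trans (ch_is.one_le x.1).2
  exact ⟨a.trans (mul_le_of_le_one_right zero_le_two (Real.rpow_le_one_of_one_le_of_nonpos
    (by linarith [le_max_right (pt x).1 0]) (by linarith))), fun t => a.trans
      (mul_le_mul_of_nonneg_left (Real.rpow_le_rpow_of_nonpos (by linarith)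
        (by linarith [le_max_left (pt x).1 0]) (by linarith)) zero_le_two)⟩

theorem w0_uq (h2 : P.Q ≤ 14 / 5) (t : (jx x).U ≤ (pt x).1) :
    w0 x * uq x ≤ 16 * (1 + (pt x).1) ^ P.Q := by
  have t0 : 0 ≤ (pt x).1 := by linarith [(jx x).ge.1, (jx x).h4]
  have a := ux_le x
  rw [abs_of_nonneg t0] at a
  have b := rpow_cmp (q := 14 / 5) (x := ux x) (y := 1 + (pt x).1) (c := 2) (by norm_num)
    (by norm_num) (Real.sqrt_nonneg _) (by linarith) one_le_two (by linarith)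
  have := mul_le_mul ((w0_le x h2).2 t0) b (Real.rpow_nonneg (Real.sqrt_nonneg _) _)
    (by positivity)
  rw [uq_eq]
  refine this.trans_eq ?_
  rw [mul_mul_mul_comm, ← Real.rpow_add (by linarith), sub_add_cancel]
  norm_num

theorem le_of_sq {a b : ℝ} (h : a ^ 2 ≤ b ^ 2) (b0 : 0 ≤ b) : a ≤ b := (abs_le_of_sq_le_sq' h b0).2

/-- The density in the tube. -/
theorem tub (H2 : LOW2) (H3 : P354FS.RAWN) {K : Cut (ch P)} (k : K.Is) (n s : ℕ) (R0 : ℝ)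
    (hN : n + 4 ≤ P.c.N0) : ∃ δ > 0, ∃ C ≥ 0, ∀ x : (ch P).Pt, pt x ∈ (jx x).σ.E.O1 →
      (pt x).2.1 ≤ 4 * R0 → |(jx x).σ.E.M - P.c.M| ≤ δ →
      (jx x).σ.E.eta ((n + s) / 2) (pt x) ≤ δ ^ 2 → ∀ β, 0 ≤ β →
      (∀ i, q2 (lt (hp _) ((jx x).σ.E.p1 (jx x).σ.c)) (pt x) P.c.N0
          ((jx x).σ.E.d1 (jx x).σ.c i) ≤ δ ^ 2 ∧
        q2 (lt (hp _) ((jx x).σ.E.p2 (jx x).σ.c)) (pt x) P.c.N0
          ((jx x).σ.E.d2 (jx x).σ.c i) ≤ min (δ ^ 2) β) →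
      ql K n s x ≤ C * (uq x * ((jx x).σ.E.eta (n + s) (pt x) + β) *
        (pt x).2.1 ^ (-41 / 20 : ℝ)) := by
  obtain ⟨δ1, p1, C1, c1, a1⟩ := P354FX.tubeb P.c.M (4 * R0) (n + s)
  obtain ⟨δ2, p2, C2, c2, a2⟩ := H2 P.c.M (4 * R0)
  obtain ⟨δ3, p3, C3, c3, a3⟩ := H3 _ (fm_ok P) m4 n (n + s) (4 * R0)
  obtain ⟨δ, d0, f1, f3, f4, f5⟩ : ∃ δ > 0, δ ≤ δ1 ∧ C2 * δ ≤ δ1 ∧ δ ≤ δ2 ∧ δ ≤ δ3 := by
    refine ⟨min (δ1 / (1 + C2)) (min δ2 δ3), by positivity, ?_⟩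
    have a := (le_div_iff₀ (by positivity)).1 (min_le_left (δ1 / (1 + C2)) (min δ2 δ3))
    have b : 0 ≤ min (δ1 / (1 + C2)) (min δ2 δ3) := by positivity
    exact ⟨by linarith [mul_nonneg b c2], by linarith,
      (min_le_right ..).trans (min_le_left ..), (min_le_right ..).trans (min_le_right ..)⟩
  refine ⟨δ, d0, cnt s * ((4 * R0) ^ 2 * 3 ^ (14 / 5 : ℝ) * (2 * (C3 * (C1 * (1 + C2) + 1)) ^ 2)),
    mul_nonneg (P354FS.cnt_nn s) (by positivity), fun x m1 r hM e1 β β0 g => ?_⟩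
  obtain ⟨m2, an, -⟩ := (fm_ok P).pt_mem x
  obtain ⟨d, z0, z1, z2, z3⟩ : ∃ d, 0 ≤ d ∧ d ≤ δ ∧ d ^ 2 ≤ β ∧ min (δ ^ 2) β ≤ d ^ 2 :=
    ⟨√(min (δ ^ 2) β), Real.sqrt_nonneg _, Real.sqrt_le_iff.2 ⟨d0.le, min_le_left ..⟩,
      (Real.sq_sqrt (by positivity)).trans_le (min_le_right ..), (Real.sq_sqrt (by positivity)).ge⟩
  have η0 := (jx x).σ.eta_nn (n + s) (pt x)
  have y0 := Real.sqrt_nonneg ((jx x).σ.E.eta (n + s) (pt x))
  have yq := Real.sq_sqrt η0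
  have i := (jx x).σ.is
  have pe : Pe (jx x).σ.c (jx x).σ.E (pt x) (4 * R0) δ1 := ⟨(jx x).σ.ok, i.shape, i.eqs,
    hM.trans f1, m1, an, fa_pt x, r,
    fun i => (le_of_sq ((P354BO.q2_val _ _ _ _).trans (g _).1) d0.le).trans f1,
    fun i => (le_of_sq ((P354BO.q2_val _ _ _ _).trans ((g _).2.trans (min_le_left ..)))
      d0.le).trans f1⟩
  have q : ∀ m ≤ n + 4, ∀ i, q2 (lt (hp _) ((jx x).σ.E.p2 (jx x).σ.c)) (pt x) m
      ((jx x).σ.E.d2 (jx x).σ.c i) ≤ d ^ 2 := fun m hm i =>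
    ((P354BO.q2_mono _ _ (hm.trans hN) _).trans (g i).2).trans z3
  have v := a1 (jx x).σ.c _ _ rfl pe (e1.trans (pow_le_pow_left₀ d0.le f1 2)) _
    ((mul_le_mul_of_nonneg_left z1 c2).trans f3) (a2 (jx x).σ.c _ _ rfl (jx x).σ.ok i.shape i.eqs m2 an
      (fa_pt x) r _ z0 (z1.trans f4) (q 2 (by omega))) _ y0 yq.ge
  have w := a3 x _ _ ((rr_pt x).trans_le r) z0 (z1.trans f5) (q _ le_rfl) v
  have r1 := P354YF.one_le_rr ch_is x
  have u1 := P354YF.one_le_ut ch_is x.1 ((ch P).uu x)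
  have hp : (ch P).at' K.p x ≤ (4 * R0) ^ 2 := by
    refine (k.ple x.1 _ (ch_is.dom x)).2.2.1.trans ?_
    simp only [Ch.mon, Real.rpow_zero, mul_one, Real.rpow_two]
    exact pow_le_pow_left₀ (by linarith) ((rr_pt x).trans_le r) 2
  refine (raw_ql ch_is u1 (le_mul_of_one_le_right (by linarith) r1) k le_rfl hp w).trans ?_
  rw [mul_assoc (cnt s), rr_pt, uq_eq]
  refine mul_le_mul_of_nonneg_left ?_ (P354FS.cnt_nn s)
  have z : (C3 * (C1 * (√((jx x).σ.E.eta (n + s) (pt x)) + C2 * d) + d)) ^ 2 ≤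
      2 * (C3 * (C1 * (1 + C2) + 1)) ^ 2 * ((jx x).σ.E.eta (n + s) (pt x) + β) := by
    generalize √((jx x).σ.E.eta (n + s) (pt x)) = y at *
    refine (pow_le_pow_left₀ (by positivity) (show _ ≤ C3 * (C1 * (1 + C2) + 1) * (y + d) by
      rw [mul_assoc]
      refine mul_le_mul_of_nonneg_left ?_ c3
      nlinarith [mul_nonneg c1 z0, mul_nonneg (mul_nonneg c1 c2) y0]) 2).trans ?_
    rw [mul_pow, ← yq]
    nlinarith [mul_nonneg (sq_nonneg (C3 * (C1 * (1 + C2) + 1))) (sq_nonneg (y - d)),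
      mul_le_mul_of_nonneg_left z2 (sq_nonneg (C3 * (C1 * (1 + C2) + 1)))]
  rw [Real.mul_rpow (by positivity) (by positivity)]
  exact (mul_le_mul_of_nonneg_right (mul_le_mul_of_nonneg_left z (by positivity))
    (Real.rpow_nonneg (by linarith [rr_pt x]) _)).trans_eq (by ring)

end Vale.Agent.P354FQ
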