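import Vale.Agent.P354FQ.Lo
import Vale.Agent.P354CO.Slab

/-!
The integral over the layer.
-/

open scoped ContDiff
open Set Filter MeasureTheory Finset

noncomputable section

namespace Vale.Agent.P354FQ

open Vale.Agent.P354XG Vale.Agent.P354XD Vale.Agent.P354XI Vale.Agent.P354Z
open Vale.Agent.P354YH Vale.Agent.P354SI Vale.Agent.P354XZ Vale.Agent.P354YL Vale.Agent.P354XT
open Vale.Agent.P354BO (χ)

variable {P : Pr} {K : Cut (ch P)} {T : Tm (ch P)} (ck : Ck K T) {φ : ℝ → ℝ} {s : ℝ}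
  (cf : Cf s φ) (hQ : P.Q ≤ 14 / 5)

theorem sm_b3 {Q D : ℝ} {b : ℕ → ℝ} (h0 : 0 ≤ Q) (b0 : ∀ j, 0 ≤ b j) (h : ∀ k, sm Q k b ≤ D)
    (k : ℕ) : sm Q k (b3 b) ≤ 3 * D := by
  have a := P354CO.sm_next h0 b0 h
  have c := P354CO.sm_next h0 (fun j => b0 (j + 1)) a k
  have e : sm Q k (b3 b) = _ := (sm_add Q k _ _).trans (congrArg (· + _) (sm_add Q k _ _))
  linarith [h k, a k]

include ck cf hQ in
theorem upp (hP : P.Ok) (j : Ix P) (hs : s ∈ j.σ.E.Lv) {k : ℕ} (hk : k ≤ j.σ.K) (n m : ℕ)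
    {A Λ C R D : ℝ} {b : ℕ → ℝ} (A0 : 0 ≤ A) (Λ0 : 0 ≤ Λ) (C0 : 0 ≤ C) (b0 : ∀ i, 0 ≤ b i)
    (hb : ∀ k, sm P.Q k b ≤ D) (rb : P.rb ≤ j.R0) (hR : 4 * j.R0 ≤ R)
    (H : ∀ x : (ch P).Pt, x.1 = j → (ch P).at' K.lay x ≠ 0 → (pt x).1 ≤ P.c.t1 + k + 2 →
      (ql K n m x ≤ A * (pt x).2.1 ^ (-41 / 20 : ℝ) ∧ |(pt x).1| ≤ Λ * (pt x).2.1) ∨
      ((pt x).2.1 ≤ 4 * j.R0 ∧ P.c.t1 + 1 ≤ (pt x).1 ∧ j.U ≤ (pt x).1 ∧ ql K n m x ≤
        C * (uq x * (j.σ.E.eta (n + m) (pt x) + b ⌊(pt x).1 - P.c.t1⌋₊)))) :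
    K.L j (T.fc φ * (ch P).fn (ps P k)) (Ql (ch P) (fm P).nf (fm P).nf0 K (vw P) 0 n m) ≤
      2 * (2 * (1 + Λ)) ^ (41 / 40 : ℝ) * A * (∫ x, mj x) + 16 * C * (P.c.t1 + 3) ^ 3 *
        (sm P.Q k (fx P (n + m) R j.σ) + (P354SI.sl 0 (c1 P (4 * j.R0)) fun _ => 1) * (3 * D)) := by
  obtain ⟨g1, g2, -⟩ := j.ge
  have h5 := j.h5
  have t1 := St.two_le j.σ
  have sa := fun i (hi : i ≤ k) => j.σ.sa (hi.trans (hk.trans (Nat.le_add_right _ 2)))
  have wc : j.σ.Wc (c1 P (4 * j.R0)) := St.c1_wc _ (by linarith)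
  obtain ⟨i1, e1⟩ := sm_eq hk fun i hi => St.sl_int (sa i hi) (St.wc_x hP j.σ R) (j.σ.cn_eta (n + m))
  have i2 := fun i (hi : i ∈ range (k + 1)) => (St.sl_int (sa i (Nat.lt_succ_iff.1
    (mem_range.1 hi))) wc (F := fun _ => 1) continuousOn_const).const_mul (wt P.Q i * b3 b i)
  have v0 := vol_nn (P := P) (4 * j.R0)
  have e2 : ∫ x : E6, ∑ i ∈ range (k + 1), wt P.Q i * b3 b i * (bp (x.1 - (P.c.t1 + i)) *
      c1 P (4 * j.R0) x.2.1 * χ x.2.2 ^ 2 * 1) ≤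
        (P354SI.sl 0 (c1 P (4 * j.R0)) fun _ => 1) * (3 * D) := by
    refine le_trans (le_of_eq ?_) (mul_le_mul_of_nonneg_left (sm_b3 hP.Q0 b0 hb k) v0)
    rw [integral_finsetSum _ i2, sm, mul_sum]
    refine sum_congr rfl fun i _ => ?_
    rw [integral_const_mul, mul_comm, ← sl_one (P.c.t1 + i)]
    rfl
  have i3 := integrable_finsetSum _ i2
  have b30 : ∀ i, 0 ≤ b3 b i := fun i => add_nonneg (add_nonneg (b0 _) (b0 _)) (b0 _)
  have p1 : ∀ x : E6, 0 ≤ 2 * (2 * (1 + Λ)) ^ (41 / 40 : ℝ) * A * mj x := fun x =>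
    mul_nonneg (by positivity) (mj_nn x)
  have p2 : ∀ x : E6, 0 ≤ 16 * C * (P.c.t1 + 3) ^ 3 * (∑ i ∈ range (k + 1), wt P.Q i *
      (bp (x.1 - (P.c.t1 + i)) * (up (P.rb - 1) P.rb x.2.1 * j.σ.out R x.2.1) * χ x.2.2 ^ 2 *
        j.σ.E.eta (n + m) x) + ∑ i ∈ range (k + 1), wt P.Q i * b3 b i *
          (bp (x.1 - (P.c.t1 + i)) * c1 P (4 * j.R0) x.2.1 * χ x.2.2 ^ 2 * 1)) := fun x =>
    mul_nonneg (by positivity) (add_nonneg (sum_nonneg fun i _ => mul_nonneg (wt_pos _ _).le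
      (mul_nonneg (mul_nonneg (mul_nonneg (bp_nonneg _) (mul_nonneg (up_nonneg ..)
        (St.out_nn ..))) (sq_nonneg _)) (j.σ.eta_nn ..))) (sum_nonneg fun i _ => mul_nonneg
      (mul_nonneg (wt_pos _ _).le (b30 i)) (mul_nonneg (mul_nonneg (mul_nonneg (bp_nonneg _)
        (c1_nn ..)) (sq_nonneg _)) zero_le_one)))
  have i4 := mj_int.const_mul (2 * (2 * (1 + Λ)) ^ (41 / 40 : ℝ) * A)
  have i5 := (i1.add i3).const_mul (16 * C * (P.c.t1 + 3) ^ 3)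
  refine (J_le (fm_ok P) (mem_w ck cf hs _ _).2 (i4.add i5) (fun x => add_nonneg (p1 x) (p2 x))
    fun x hx => ?_).trans ?_
  swap
  · rw [integral_add' i4 i5, integral_const_mul, integral_const_mul, integral_add' i1 i3, e1]
    exact add_le_add le_rfl (mul_le_mul_of_nonneg_left (add_le_add le_rfl e2) (by positivity))
  rw [val_w ck cf hQ ck.cut.sm.2.1]
  have q0 : 0 ≤ ql K n m x := Ql_pos ch_is ck.cut n m
  have w := w0_nn x hQ
  have be0 := be_mem P.c.t1 k (pt x).1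
  have l0 : (ch P).at' K.lay x ∈ Set.Icc (0 : ℝ) 1 := (ck.cut.rng _ _ (ch_is.dom x)).2
  by_cases c : be P.c.t1 k (pt x).1 = 0 ∨ (ch P).at' K.lay x = 0
  · refine le_trans (le_of_eq ?_) (add_nonneg (p1 _) (p2 _))
    rcases c with c | c <;> simp [c]
  obtain ⟨c1', c2⟩ := not_or.1 c
  have z : φ (T.tv x) * (w0 x * be P.c.t1 k (pt x).1 * ((ch P).at' K.lay x * ql K n m x)) ≤
      w0 x * be P.c.t1 k (pt x).1 * ql K n m x :=
    (mul_le_of_le_one_left (mul_nonneg (mul_nonneg w be0.1) (mul_nonneg l0.1 q0))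
      (cf.2.1 _).1.2).trans (mul_le_mul_of_nonneg_left (mul_le_of_le_one_left q0 l0.2)
        (mul_nonneg w be0.1))
  refine (mul_le_mul_of_nonneg_left z (sq_nonneg _)).trans ?_
  have r0 := R0_le x
  rw [show jx x = j from hx] at r0
  rcases H x hx c2 (not_lt.1 fun e => c1' (by
    rw [be, Real.smoothTransition.one_of_one_le (by push_cast; linarith), sub_self])) with
    ⟨a1, a2⟩ | ⟨a1, a2, a3, a4⟩
  · refine le_add_of_le_of_nonneg ?_ (p2 _)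
    have := mul_le_mul ((mul_le_of_le_one_right w be0.2).trans (w0_le x hQ).1) a1 q0 zero_le_two
    have e := mul_le_mul_of_nonneg_left (le_mj (by linarith) a2) (show 0 ≤ 2 * A by positivity)
    linarith [mul_le_mul_of_nonneg_left this (sq_nonneg (χ (pt x).2.2))]
  refine le_add_of_nonneg_of_le (p1 _) ?_
  have η0 := j.σ.eta_nn (n + m) (pt x)
  have s1 := be_le_sum (k := k) hP.Q0 hP.Q3 (by linarith) a2 b0 η0
  have s2 := mul_le_mul_of_nonneg_right (w0_uq x hQ (by rw [show jx x = j from hx]; exact a3))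
    (mul_nonneg (mul_nonneg C0 be0.1) (add_nonneg η0 (b0 ⌊(pt x).1 - P.c.t1⌋₊)))
  have s3 := mul_le_mul_of_nonneg_left a4 (mul_nonneg w be0.1)
  have s4 := mul_le_mul_of_nonneg_left s1 (show 0 ≤ 16 * C by positivity)
  have s5 := mul_le_mul_of_nonneg_left (show w0 x * be P.c.t1 k (pt x).1 * ql K n m x ≤ _ from
    s3.trans ((le_of_eq_of_le (by ring) s2).trans (le_of_eq_of_le (by ring) s4)))
    (sq_nonneg (χ (pt x).2.2))
  refine s5.trans_eq ?_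
  simp only [Pi.add_apply]
  rw [up_one (sub_one_lt _) (rb.trans r0), St.out_one (a1.trans hR) (by linarith),
    St.c1_one j.σ (by linarith [St.r0_le j.σ]) a1, ← sum_add_distrib, mul_sum, mul_sum, mul_sum,
    mul_sum]
  exact sum_congr rfl fun _ _ => by ring

end Vale.Agent.P354FQ
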